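import Vale.Agent.P314.Gen

namespace Vale.Agent.Results.P314.OneHittingPoint

open Vale.Agent.P314 Computability

universe u

theorem result (F : Type u) [Field F] (enc : F → List Bool) :
    ∃ H : (n s : ℕ) → List (MatTuple F n),
      (∀ n s, IsHittingSet n s (H n s)) ∧
      (∀ n s, (H n s).length = 1 ∧ ∀ T ∈ H n s, ∀ i r c, T.2 i r c = 0 ∨ T.2 i r c = 1) ∧
      Nonempty (Turing.TM2ComputableInPolyTime encodeInput (fun w : List Γ' => w)
        (fun p : ℕ × ℕ => encodeTuples enc (H p.1 p.2))) := by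
  refine ⟨fun n s => [hitTuple F n s], fun n s φ hs hφ => ⟨_, List.mem_singleton_self _,
    hitTuple_hits F n s φ hs hφ⟩, fun n s => ⟨rfl, ?_⟩, hitTuple_polyTime enc⟩
  intro T hT
  rw [List.mem_singleton.1 hT]
  intro i r c
  exact hitTuple_entries F n s i r c

end Vale.Agent.Results.P314.OneHittingPoint
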